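import Vale.Agent.P352X.R.F2.B
import Vale.Agent.P352Z.P352X.Api1C
import Vale.Agent.P352Z.P352X.R.GRP.C
import Vale.Agent.P352G2.Kit

open Vale.Agent.P352G

/-!
# P352X, row F2: charges as operators
-/

set_option linter.all false

noncomputable section

open Filter Topology Set
open scoped ContDiff

namespace Vale.Agent.P352X.Fp

open Vale.Agent.P352 Vale.Agent.P352.GF Vale.Agent.P352.BW Vale.Agent.P352.H496
open Vale.Agent.P352.H755 Vale.Agent.P352.H15
open Vale.Agent.P352.H246 (In Al)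
open UniformSpace (Completion)
open Complex (I)
open Ap

variable {D : Type*} [NormedAddCommGroup D] [InnerProductSpace ℂ D] [GrD D]

/-! ### symmetric operators that commute with polynomials in the fields -/

section alg

variable {Q : Theory D} {P P' Y Y' : D → D} {K W : Set V} {B : GF.Fld D} {f g : Fn}

end alg

/-! ### the stress tensor smeared with tensor test functions -/

variable {c : CtxZ D} {F G : Ix → Ix → Fn} {χ Ξ χ' Ξ' φ : V → ℝ} {ξ : V → V} {K : Set V}

lemma fTZ (c : CtxZ D) (m n : Ix) : c.Q.fld (c.T m n) := Grp.T_fld c.hT m n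

lemma Tf_syZ (hF : ∀ m n, GF.IsTest (F m n)) (e : ∀ m n, bar (F m n) = F m n) : Sy (c.Tf F) :=
  fun v w => by simp only [CtxZ.Tf, sum_inner, inner_sum, c.hT.herm _ _ _ _ _ (hF _ _), e]

lemma Tf_linZ (hF : ∀ m n, GF.IsTest (F m n)) (hG : ∀ m n, GF.IsTest (G m n)) (a : ℂ) (v : D) :
    c.Tf (fun m n x => F m n x + a * G m n x) v = c.Tf F v + a • c.Tf G v := by
  simp only [CtxZ.Tf, c.Q.lin _ _ _ _ _ (fTZ c _ _) (hF _ _) (hG _ _), Finset.sum_add_distrib,
    Finset.smul_sum]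

lemma Tf_locZ (hF : ∀ m n, GF.IsTest (F m n)) {B : GF.Fld D} (hB : c.Q.fld B) {f : Fn}
    (hf : GF.IsTest f) (h : ∀ m n, Sep (F m n) f) (v : D) :
    c.Tf F (B f v) = B f (c.Tf F v) := by
  simp only [CtxZ.Tf, fld_sum hB hf, c.Q.loc _ _ _ _ _ (c.hT.bose _ _) hB (hF _ _) hf (h _ _)]

/-- gradients carry no charge -/
lemma Tf_gradZ (h : Tst φ) (hξ : IsSim 0 ξ) (v : D) :
    c.Tf (fun m n x => ((dr m φ x * (eta n * ξ x n) : ℝ) : ℂ)) v = 0 := by
  have s := smooth_sim hξ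
  obtain ⟨b, w, hw, e⟩ := hξ
  have t : ∀ n, Tst fun x => φ x * (eta n * ξ x n) := fun n => cs_mul_r h (by fun_prop)
  have d : ∀ m n, (fun x => ((dr m φ x * (eta n * ξ x n) : ℝ) : ℂ)) = fun x =>
      pd m (fun x => ((φ x * (eta n * ξ x n) : ℝ) : ℂ)) x +
        (-(eta n * w m n : ℝ) : ℂ) * (φ x : ℂ) := fun m n => by
    funext x
    have a := (h.1.differentiable (by simp) x).hasFDerivAt
    have k : HasFDerivAt (fun x : V => eta n * ξ x n)
        (eta n • ∑ k, w k n • (ContinuousLinearMap.proj k : V →L[ℝ] ℝ)) x := by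
      simp only [e, zero_mul, add_zero, mul_comm _ (w _ n)]
      exact ((HasFDerivAt.fun_sum fun k _ => (hasFDerivAt_apply k x).const_mul (w k n)).const_add
        _).const_mul _
    rw [pd_cx (a.fun_mul k).differentiableAt, dr_eq (a.fun_mul k).differentiableAt,
      (a.fun_mul k).fderiv, dr_eq a.differentiableAt]
    simp [bas]
    ring
  have z : ∑ m, ∑ n, (-(eta n * w m n : ℝ) : ℂ) • c.T m n (fun x => (φ x : ℂ)) v = 0 := by
    refine (smul_eq_zero_iff_right (two_ne_zero' ℂ)).1 ?_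
    rw [two_smul]
    nth_rw 1 [Finset.sum_comm]
    simp only [← Finset.sum_add_distrib]
    refine Finset.sum_eq_zero fun m _ => Finset.sum_eq_zero fun n _ => ?_
    rw [c.hT.symm n m _ _ (tst_sw h), ← add_smul, hw m n]
    simp
  simp only [CtxZ.Tf, d, c.Q.lin _ _ _ _ _ (fTZ c _ _) (test_pd _ (tst_sw (t _))) (tst_sw h),
    Finset.sum_add_distrib, z, add_zero]
  rw [Finset.sum_comm]
  exact Finset.sum_eq_zero fun n _ => c.hT.conserved n _ v (tst_sw (t n))

/-- comparison of two charges -/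
lemma Tf_cmpZ {ρ : ℝ} (hK : ∀ x ∈ K, ‖x‖ ≤ ρ) (h : Chg K χ Ξ) (h' : Chg K χ' Ξ') (hξ : IsSim 0 ξ) :
    ∃ G : Ix → Ix → Fn, (∀ m n, In (Jc K)ᶜ (G m n)) ∧ (∀ m n, bar (G m n) = G m n) ∧
      ∀ v, c.Tf (dens χ' Ξ' ξ) v = c.Tf (dens χ Ξ ξ) v + c.Tf G v := by
  obtain ⟨φ, p, q⟩ := chg_cmp hK h h'
  have s := smooth_sim hξ
  have i : ∀ m n, In (Jc K)ᶜ fun x =>
      (((χ' x * dr m Ξ' x - χ x * dr m Ξ x - dr m φ x) * (eta n * ξ x n) : ℝ) : ℂ) := fun m n =>
    in_cx (cs_mul_r (cs_sub (cs_sub (cs_mul_r h'.1 (smooth_dr h'.2.1 m))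
      (cs_mul_r h.1 (smooth_dr h.2.1 m))) (tst_dr p m)) (by fun_prop))
      (tsupport_mul_subset_left.trans fun z hz k =>
        notMem_tsupport_iff_eventuallyEq.2 (q m z k) hz)
  refine ⟨_, i, fun m n => bar_cx _, fun v => ?_⟩
  have t := test_dens h.1 h.2.1 hξ
  have a := Tf_linZ (c := c) (fun m n => sw_lin 1 (t m n) (i m n).1)
    (fun m n => tst_sw (cs_mul_r (tst_dr p m) (show ContDiff ℝ ∞ fun x => eta n * ξ x n by
      fun_prop))) 1 v
  rw [Tf_gradZ p hξ, Tf_linZ t fun m n => (i m n).1, smul_zero, add_zero, one_smul] at a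
  rw [← a]
  congr 1
  funext m n x
  simp only [dens]
  push_cast
  ring

/-- locality of even operators in opposite wedges -/
lemma locEZ (j : JCZ c) {a b y : V} (ha : IsNull a) (hb : IsNull b) (h : 0 < GF.mdot a b)
    {O O' : Set V} (e : O ⊆ Wdg a b y) (e' : O' ⊆ Wdg b a y) {Y} (hY : Y ∈ c.N O') (ev : Ev Y) :
    Y ∈ (c.N O).commutant :=
  comm_anti (c.hN.mono _ _ e) Y ((j.dualE a b y ha hb h Y ev).2 (c.hN.mono _ _ e' Y hY))

/-- the stress tensor outside of the causal hull commutes with the algebra of a double cone -/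
lemma far_commZ (j : JCZ c) {y : V} {r : ℝ} (hr : 0 < r) {X : Completion D →L[ℂ] Completion D}
    (hX : X ∈ c.N (dc y r)) (ev : Ev X) (hG : ∀ m n, In (Jc (closure (dc y r)))ᶜ (G m n))
    (e : ∀ m n, bar (G m n) = G m n) (v w : D) :
    inner ℂ ((c.Tf G w : D) : Completion D) (X v) = inner ℂ (w : Completion D) (X (c.Tf G v : D)) := by
  simp only [CtxZ.Tf, coe_sum, sum_inner, map_sum, inner_sum]
  refine Finset.sum_congr rfl fun m _ => Finset.sum_congr rfl fun n _ => ?_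
  nth_rw 1 [← e m n]
  refine in_ind (P := fun f => inner ℂ ((c.T m n (bar f) w : D) : Completion D) (X v) =
    inner ℂ (w : Completion D) (X (c.T m n f v : D))) ?_ (fun f g a b p q => ?_) (fun z hz => ?_)
    (hG m n)
  · rw [show (bar fun _ => 0) = fun _ => 0 from funext fun _ => star_zero ℂ]
    simp [fld_zero (fTZ c m n), Completion.coe_zero]
  · rw [show (bar fun x => f x + g x) = fun x => bar f x + bar g x from
      funext fun _ => star_add _ _, fld_add (fTZ c m n) (test_bar a.1) (test_bar b.1),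
      fld_add (fTZ c m n) a.1 b.1, Completion.coe_add, Completion.coe_add, map_add, inner_add_left,
      inner_add_right, p, q]
  · obtain ⟨a, b, u, ha, hb, hab, k1, k2⟩ := ex_wdg hr hz
    exact ⟨_, (wdg_open a b u).mem_nhds k1, fun f hf =>
      (Grp.afs_TZ c.hN c.hT m n (in_mono hf inter_subset_left)).2 X
        (locEZ j ha hb hab Subset.rfl k2 hX ev) v w⟩

/-! ### dilations -/

lemma usc_eqZ {R : ℝ} (hR : 0 < R) : Usc c.Q R R = Ug c.Q R GF.one 0 := by
  rw [Usc, Real.sqrt_mul_self hR.le, div_self hR.ne', Real.sqrt_one, sub_self, T.bst_zero]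

lemma Tv_dilZ (g : GRPZ c) (hF : ∀ m n, GF.IsTest (F m n)) {R : ℝ} (hR : 0 < R) :
    c.Tv F = Usc c.Q R R (c.Tv fun m n x => F m n (R • x)) := by
  have e : ∀ x, sim R GF.one 0 x = R • x := fun x => by
    funext n
    simp [sim, GF.one, bas]
  simp only [usc_eqZ hR, CtxZ.Tv, CtxZ.Tf, coe_sum, map_sum, g.coe _ _ _ _ hR H496.isLor_one]
  refine Finset.sum_congr rfl fun m _ => Finset.sum_congr rfl fun n _ => ?_
  have := c.hT.cov m n R GF.one 0 _ c.Q.vac hR H496.isLor_one (hF m n)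
  rw [c.Q.U_vac _ _ _ hR H496.isLor_one] at this
  simp [this, e, GF.one, bas, apply_ite Complex.ofReal]

/-- the standard charges of the vacuum tend to zero weakly -/
lemma std_nullZ (g : GRPZ c) (hb : BASZ c) (h : Std χ Ξ) (hξ : IsSim 0 ξ) (u : Completion D) :
    Tendsto (fun n : ℕ => inner ℂ (c.Tv (dens (fun z => χ (((n : ℝ) + 1)⁻¹ • z))
      (fun z => Ξ (((n : ℝ) + 1)⁻¹ • z)) ξ)) u) atTop (𝓝 0) := by
  have hξ' := hξ
  obtain ⟨b, w, hw, e⟩ := hξ'
  have t0 := test_dens h.1 h.2.1 (ξ := fun z n => ∑ m, z m * w m n) ⟨0, w, hw, by simp⟩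
  have t1 := test_dens h.1 h.2.1 (ξ := fun _ => b) ⟨b, 0, by simp, by simp⟩
  have p : ∀ n : ℕ, 0 < (n : ℝ) + 1 := fun n => by positivity
  have l : Tendsto (fun n : ℕ => ((((n : ℝ) + 1)⁻¹ : ℝ) : ℂ)) atTop (𝓝 0) := by
    simpa only [one_div, Complex.ofReal_zero] using
      (tendsto_one_div_add_atTop_nhds_zero_nat (𝕜 := ℝ)).ofReal
  have k := hb.wn ℕ atTop _ _ (fun _ => 0) _ _ u (fun n => ⟨p n, p n⟩)
    (.inl (tendsto_natCast_atTop_atTop.atTop_add tendsto_const_nhds))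
    ((tendsto_const_nhds (x := c.Tv (dens χ Ξ fun z n => ∑ m, z m * w m n))).add
      (l.smul_const (c.Tv (dens χ Ξ fun _ => b)))) (by
        simp only [zero_smul, add_zero, CtxZ.Tv, CtxZ.Tf, om, Completion.inner_coe, inner_sum,
          g.perp _ _ _ (t0 _ _), Finset.sum_const_zero])
  refine k.congr fun n => ?_
  have hc := h.chg (K := ∅) (ρ := 0) (by simp) (p n) (p n).le
  rw [g.ut0, ContinuousLinearMap.one_apply, Tv_dilZ g (test_dens hc.1 hc.2.1 hξ) (p n), CtxZ.Tv,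
    CtxZ.Tv, CtxZ.Tv, ← Completion.coe_smul, ← Completion.coe_add, ← Tf_linZ t0 t1]
  congr 4
  funext m k x
  have := (p n).ne'
  simp only [dens, dr_scale h.2.1, inv_smul_smul₀ this, e, Pi.smul_apply, smul_eq_mul, mul_assoc,
    ← Finset.mul_sum]
  rw [← Complex.ofReal_mul, ← Complex.ofReal_add]
  congr 1
  field_simp
  ring

end Vale.Agent.P352X.Fp
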